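import Vale.Agent.P227.Local.Volume
import Vale.Agent.P227.Main

/-!
The second variation of the logarithm of the volume at an unconditional polytope with one
inequality for each vertex of the polar is nonpositive against every even perturbation.
-/

open Set MeasureTheory Matrix Filter Topology
open scoped ENNReal

namespace Vale.Agent.P227.Local

/-- A second order upper bound from the first two derivatives. -/
lemma second_le {ψ d : ℝ → ℝ} {D : ℝ} (hd : ∀ᶠ t in 𝓝 0, HasDerivAt ψ (d t) t)
    (hD : HasDerivAt d D 0) {ε : ℝ} (hε : 0 < ε) :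
    ∀ᶠ t in 𝓝 0, ψ t + ψ (-t) - 2 * ψ 0 ≤ (D + ε) * t ^ 2 := by
  have h := (hasDerivAt_iff_isLittleO_nhds_zero.1 hD).def hε
  simp only [zero_add, Real.norm_eq_abs, smul_eq_mul] at h
  obtain ⟨δ, hδ, hball⟩ := Metric.eventually_nhds_iff.1 (hd.and h)
  set u : ℝ → ℝ := fun t => ψ t + ψ (-t) - 2 * ψ 0 - (D + ε) * t ^ 2 with hu
  have hdist : ∀ t, |t| < δ → dist t 0 < δ := fun t ht => by simpa [Real.dist_eq] using ht
  have hder : ∀ t, |t| < δ → HasDerivAt u (d t - d (-t) - 2 * (D + ε) * t) t := fun t ht => by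
    have h1 := (hball (hdist t ht)).1
    have h2 := (hball (hdist (-t) (by rwa [abs_neg]))).1
    have h2' : HasDerivAt (fun s => ψ (-s)) (-d (-t)) t := by
      simpa [Function.comp_def] using h2.comp t (hasDerivAt_neg t)
    refine (((h1.add h2').sub_const _).sub (((hasDerivAt_id t).pow 2).const_mul _)).congr_deriv ?_
    simp; ring
  have key : ∀ t, 0 ≤ t → t < δ → u t ≤ 0 := fun t ht htδ => by
    have hanti : AntitoneOn u (Icc 0 t) := by
      refine antitoneOn_of_hasDerivWithinAt_nonpos (convex_Icc _ _)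
        (fun s hs => (hder s (by rw [abs_of_nonneg hs.1]; linarith [hs.2])).continuousAt.continuousWithinAt)
        (fun s hs => (hder s ?_).hasDerivWithinAt) fun s hs => ?_
      · rw [interior_Icc] at hs; rw [abs_of_pos hs.1]; linarith [hs.2]
      · rw [interior_Icc] at hs
        have ha : |s| < δ := by rw [abs_of_pos hs.1]; linarith [hs.2]
        have e1 := abs_le.1 (hball (hdist s ha)).2
        have e2 := abs_le.1 (hball (hdist (-s) (by rwa [abs_neg]))).2
        rw [abs_of_pos hs.1] at e1
        rw [abs_neg, abs_of_pos hs.1] at e2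
        nlinarith [e1.2, e2.1]
    have := hanti (left_mem_Icc.2 ht) (right_mem_Icc.2 ht) ht
    simpa [hu, two_mul] using this
  refine Metric.eventually_nhds_iff.2 ⟨δ, hδ, fun t ht => ?_⟩
  rw [Real.dist_eq, sub_zero] at ht
  rcases le_total 0 t with h0 | h0
  · have := key t h0 (lt_of_abs_lt ht)
    simp only [hu] at this
    linarith
  · have := key (-t) (neg_nonneg.2 h0) (by linarith [(abs_lt.1 ht).1])
    simp only [hu, neg_neg, neg_sq] at this
    linarith

/-- A function dominated at symmetric points by its middle value has nonpositive second derivative. -/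
lemma second_nonpos {ψ d : ℝ → ℝ} {D : ℝ} (hd : ∀ᶠ t in 𝓝 0, HasDerivAt ψ (d t) t)
    (hD : HasDerivAt d D 0) (hmid : ∀ᶠ t in 𝓝 0, ψ t + ψ (-t) ≤ 2 * ψ 0) : D ≤ 0 := by
  refine le_of_forall_pos_le_add fun ε hε => ?_
  have h := second_le (hd.mono fun t ht => ht.neg) hD.neg hε
  have := mem_of_mem_nhds ((Filter.Eventually.and h hmid) : _ ∈ 𝓝 (0 : ℝ))
  obtain ⟨δ, hδ, hball⟩ := Metric.eventually_nhds_iff.1 (h.and hmid)
  have ht := hball (y := δ / 2) (by rw [Real.dist_eq, sub_zero, abs_of_pos] <;> linarith)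
  simp only [Pi.neg_apply] at ht
  have h2 : 0 < (δ / 2) ^ 2 := by positivity
  by_contra hcon
  push Not at hcon
  nlinarith [ht.1, ht.2]

variable {n : ℕ}

/-- The reflection in a coordinate hyperplane. -/
def flp (i : Fin n) (x : Fin n → ℝ) : Fin n → ℝ := Function.update x i (-x i)

lemma flp_flp (i : Fin n) (x : Fin n → ℝ) : flp i (flp i x) = x := by
  simp [flp]

lemma flp_same (i : Fin n) (x : Fin n → ℝ) : flp i x i = -x i := by simp [flp]

lemma flp_other {i k : Fin n} (h : k ≠ i) (x : Fin n → ℝ) : flp i x k = x k := by simp [flp, h]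

lemma flp_neg (i : Fin n) (x : Fin n → ℝ) : flp i (-x) = -flp i x := by
  funext k
  by_cases h : k = i
  · subst h; simp [flp]
  · simp [flp, h]

lemma flp_comm (i k : Fin n) (x : Fin n → ℝ) : flp i (flp k x) = flp k (flp i x) := by
  funext p
  by_cases hi : p = i <;> by_cases hk : p = k <;> subst_vars <;> simp_all [flp, Ne.symm]

lemma dot_flp (i : Fin n) (x a : Fin n → ℝ) : x ⬝ᵥ flp i a = flp i x ⬝ᵥ a := by
  refine Finset.sum_congr rfl fun k _ => ?_
  by_cases h : k = i
  · subst h; simp [flp]
  · simp [flp, h]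

lemma dot_flp' (i : Fin n) (x a : Fin n → ℝ) : x ⬝ᵥ flp i a = x ⬝ᵥ a - 2 * (x i * a i) := by
  have : flp i a = a - Pi.single i (2 * a i) := by
    funext k
    by_cases h : k = i
    · subst h; simp [flp]; ring
    · simp [flp, h]
  rw [this, dotProduct_sub, dotProduct_single]
  ring

lemma measurePreserving_flp (i : Fin n) : MeasurePreserving (flp i) volume volume := by
  have : flp i = fun x : Fin n → ℝ => fun k => (if k = i then Neg.neg else id) (x k) := by
    funext x k
    by_cases h : k = i
    · subst h; simp [flp]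
    · simp [flp, h]
  rw [this]
  refine volume_preserving_pi fun k => ?_
  split
  · exact Measure.measurePreserving_neg volume
  · exact MeasurePreserving.id volume

/-- The normals of an unconditional polytope, scaled to constant one, no three on a line. -/
structure Sys (A : Finset (Fin n → ℝ)) : Prop where
  flip : ∀ i, ∀ a ∈ A, flp i a ∈ A
  neg : ∀ a ∈ A, -a ∈ A
  nz : ∀ a ∈ A, a ≠ 0
  bdd : Bdd fun a : A => (a : Fin n → ℝ)
  col : ∀ j ∈ A, ∀ p ∈ A, ∀ q ∈ A, j ≠ p → j ≠ q → p ≠ q → ∀ r : ℝ, q ≠ r • p + (1 - r) • j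

variable {A : Finset (Fin n → ℝ)}

/-- The normals as a family. -/
abbrev nv (A : Finset (Fin n → ℝ)) : A → Fin n → ℝ := fun a => a

lemma Sys.nonDeg (c : A → ℝ) (hA : Sys A) : NonDeg (nv A) c := fun a => Or.inl (hA.nz _ a.2)

lemma el_zero_iff {m : ℕ} {ι : Type*} [DecidableEq ι] {b : ι → Fin (m + 1) → ℝ} {j l : ι}
    (hl : l ≠ j) {k : Fin (m + 1)} (hk : b j k ≠ 0) (h : el b j k l = 0) :
    b l = (b l k / b j k) • b j := by
  funext x
  rcases Fin.eq_self_or_eq_succAbove k x with rfl | ⟨p, rfl⟩
  · simp [div_mul_cancel₀ _ hk]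
  · have := congrFun h p
    simp only [el, hl, if_false, Pi.zero_apply, sub_eq_zero] at this
    simpa using this

lemma Sys.fNonDeg (hA : Sys A) : FNonDeg (nv A) (fun _ => 1) := by
  cases n with
  | zero => trivial
  | succ m =>
    intro j k hk l
    by_cases hl : l = j
    · subst hl; exact Or.inr (by simp [ec])
    by_contra hcon
    push Not at hcon
    have e := el_zero_iff hl hk hcon.1
    have hc := hcon.2
    simp only [ec, hl, if_false, mul_one, sub_eq_zero] at hc
    rw [← hc, one_smul] at e
    exact hl (Subtype.ext e)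

lemma Sys.rNonDeg (hA : Sys A) : RNonDeg (nv A) (fun _ => 1) := by
  cases n with
  | zero => trivial
  | succ m =>
    intro j k hk
    refine ⟨hA.fNonDeg j k hk, ?_⟩
    cases m with
    | zero => trivial
    | succ m =>
      intro p k' hk' q
      have hpj : p ≠ j := fun e => hk' (by subst e; simp [el])
      by_cases hqp : q = p
      · subst hqp; exact Or.inr (by simp [ec])
      by_cases hqj : q = j
      · subst hqj; exact Or.inr (by simp [ec, el, Ne.symm hqp])
      by_contra hcon
      push Not at hcon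
      have e := el_zero_iff hqp hk' hcon.1
      have hc := hcon.2
      set r := el (nv A) j k q k' / el (nv A) j k p k'
      simp only [ec, hqp, hqj, hpj, if_false, mul_one] at hc
      refine hA.col j j.2 p p.2 q q.2 (fun e => hpj (Subtype.ext e).symm)
        (fun e => hqj (Subtype.ext e).symm) (fun e => hqp (Subtype.ext e).symm) r ?_
      funext x
      rcases Fin.eq_self_or_eq_succAbove k x with hx | ⟨y, hy⟩
      · subst hx
        have e1 := (div_mul_cancel₀ (nv A q x) hk).symm
        have e2 := (div_mul_cancel₀ (nv A p x) hk).symm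
        simp only [Pi.add_apply, Pi.smul_apply, smul_eq_mul]
        linear_combination e1 - r * e2 - nv A j x * hc
      · have hy' := congrFun e y
        simp only [el, hqj, hpj, if_false, Pi.smul_apply, smul_eq_mul] at hy'
        subst hy
        simp only [Pi.add_apply, Pi.smul_apply, smul_eq_mul]
        linear_combination hy' + nv A j (k.succAbove y) * (-hc)

/-- The constants `exp (t g)`. -/
noncomputable def cst (g : A → ℝ) (t : ℝ) : A → ℝ := fun a => Real.exp (t * g a)

lemma cst_zero (g : A → ℝ) : cst g 0 = fun _ => 1 := by funext a; simp [cst]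

lemma tendsto_cst (g : A → ℝ) : Tendsto (cst g) (𝓝 0) (𝓝 fun _ => 1) := by
  rw [← cst_zero g]
  exact (show Continuous (cst g) by unfold cst; fun_prop).tendsto 0

lemma pv_pos (hA : Sys A) (g : A → ℝ) (t : ℝ) : 0 < pv (nv A) (cst g t) := by
  refine ENNReal.toReal_pos ?_ (volume_poly_lt hA.bdd _).ne
  set U : Set (Fin n → ℝ) := ⋂ a : A, {x | x ⬝ᵥ (a : Fin n → ℝ) < cst g t a}
  have hU : IsOpen U := isOpen_iInter_of_finite fun a => isOpen_lt
    (show Continuous fun x : Fin n → ℝ => x ⬝ᵥ (a : Fin n → ℝ) by unfold dotProduct; fun_prop)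
    continuous_const
  have h0 : (0 : Fin n → ℝ) ∈ U := mem_iInter.2 fun a => by simp [cst, Real.exp_pos]
  exact ((hU.measure_pos volume ⟨0, h0⟩).trans_le
    (measure_mono (show U ⊆ poly (nv A) (cst g t) from fun x hx l => le_of_lt (mem_iInter.1 hx l :)))).ne'

/-- The logarithm of the volume along a perturbation. -/
noncomputable def psi (A : Finset (Fin n → ℝ)) (g : A → ℝ) (t : ℝ) : ℝ :=
  Real.log (pv (nv A) (cst g t))

/-- Its derivative. -/
noncomputable def dpsi (A : Finset (Fin n → ℝ)) (g : A → ℝ) (t : ℝ) : ℝ :=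
  (∑ j, fac (nv A) (cst g t) j * (g j * cst g t j)) / pv (nv A) (cst g t)

/-- The second derivative at zero, times the square of the volume. -/
noncomputable def Phi (A : Finset (Fin n → ℝ)) (g : A → ℝ) : ℝ :=
  pv (nv A) (fun _ => 1) * (∑ j, fac (nv A) (fun _ => 1) j * (g j * g j)
      + ∑ j, ∑ l, dfac (nv A) (fun _ => 1) j l * g l * g j)
    - (∑ j, fac (nv A) (fun _ => 1) j * g j) ^ 2

lemma hasDerivAt_cst (g : A → ℝ) (t : ℝ) :
    HasDerivAt (cst g) (fun a => g a * cst g t a) t := by
  refine hasDerivAt_pi.2 fun a => ?_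
  simpa [cst, mul_comm] using ((hasDerivAt_id t).mul_const (g a)).exp

lemma hasDerivAt_psi (hA : Sys A) (g : A → ℝ) :
    ∀ᶠ t in 𝓝 0, HasDerivAt (psi A g) (dpsi A g t) t := by
  filter_upwards [(tendsto_cst g).eventually hA.fNonDeg.eventually] with t ht
  have h1 := (hasFDerivAt_pv hA.bdd (hA.nonDeg _) ht).comp_hasDerivAt t (hasDerivAt_cst g t)
  refine (h1.log (pv_pos hA g t).ne').congr_deriv ?_
  simp [dpsi, dsum_apply]

lemma hasDerivAt_dpsi (hA : Sys A) (g : A → ℝ) :
    HasDerivAt (dpsi A g) (Phi A g / pv (nv A) (fun _ => 1) ^ 2) 0 := by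
  have hc := hasDerivAt_cst g 0
  have hF := ((cst_zero g).symm ▸ hasFDerivAt_pv hA.bdd (hA.nonDeg (fun _ => 1)) hA.fNonDeg :
    HasFDerivAt (pv (nv A)) _ (cst g 0)).comp_hasDerivAt 0 hc
  have hN := HasDerivAt.fun_sum (u := Finset.univ) fun j (_ : j ∈ Finset.univ) =>
    (((cst_zero g).symm ▸ hasFDerivAt_fac hA.bdd hA.rNonDeg j :
      HasFDerivAt (fun c => fac (nv A) c j) _ (cst g 0)).comp_hasDerivAt 0 hc).fun_mul
        ((hasDerivAt_pi.1 hc j).const_mul (g j))
  refine (hN.fun_div hF (pv_pos hA g 0).ne').congr_deriv ?_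
  simp only [Function.comp_apply, cst_zero, dsum_apply, mul_one, Phi, Finset.sum_add_distrib]
  simp only [Finset.sum_mul, ← mul_assoc]
  rw [← Finset.sum_mul]
  ring

lemma pv_flip (hA : Sys A) (i : Fin n) (g : A → ℝ) (t : ℝ) :
    pv (nv A) (cst (fun a => g ⟨flp i a, hA.flip i a a.2⟩) t) = pv (nv A) (cst g t) := by
  have e : poly (nv A) (cst (fun a => g ⟨flp i a, hA.flip i a a.2⟩) t)
      = flp i ⁻¹' poly (nv A) (cst g t) := by
    ext x
    simp only [poly, mem_preimage, mem_ofPred_eq, cst]
    constructor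
    · intro h a
      have := h ⟨flp i a, hA.flip i a a.2⟩
      simpa [nv, flp_flp, dot_flp] using this
    · intro h a
      have := h ⟨flp i a, hA.flip i a a.2⟩
      simpa [nv, flp_flp, dot_flp] using this
  rw [pv, pv, e, (measurePreserving_flp i).measure_preimage
    (measurableSet_poly _ _).nullMeasurableSet]

/-- Reflecting the perturbation. -/
def refl (hA : Sys A) (i : Fin n) (g : A → ℝ) : A → ℝ :=
  fun a => g ⟨flp i a, hA.flip i a a.2⟩

lemma dpsi_refl (hA : Sys A) (i : Fin n) (g : A → ℝ) :
    dpsi A (refl hA i g) =ᶠ[𝓝 0] dpsi A g := by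
  have e : psi A (refl hA i g) = psi A g := funext fun t => congrArg Real.log (pv_flip hA i g t)
  filter_upwards [hasDerivAt_psi hA (refl hA i g), hasDerivAt_psi hA g] with t h1 h2
  rw [e] at h1
  exact h1.unique h2

lemma Phi_refl (hA : Sys A) (i : Fin n) (g : A → ℝ) : Phi A (refl hA i g) = Phi A g := by
  have h1 := (hasDerivAt_dpsi hA (refl hA i g)).congr_of_eventuallyEq (dpsi_refl hA i g).symm
  have h := h1.unique (hasDerivAt_dpsi hA g)
  have hp := pv_pos hA g 0
  rw [cst_zero] at hp
  field_simp at h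
  linarith

lemma lin_refl (hA : Sys A) (i : Fin n) (g : A → ℝ) :
    ∑ j, fac (nv A) (fun _ => 1) j * refl hA i g j = ∑ j, fac (nv A) (fun _ => 1) j * g j := by
  have h := (dpsi_refl hA i g).self_of_nhds
  have hp := pv_pos hA g 0
  simp only [dpsi, cst_zero, mul_one] at h hp
  field_simp at h
  linarith

/-- Two facets on opposite sides of a coordinate hyperplane share no ridge unless one is the mirror
image of the other. -/
lemma ridge_zero (hA : Sys A) (i : Fin n) {j l : A}
    (hsign : (j : Fin n → ℝ) i * (l : Fin n → ℝ) i < 0)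
    (hl : (l : Fin n → ℝ) ≠ flp i j) : dfac (nv A) (fun _ => 1) j l = 0 := by
  have hlj : l ≠ j := fun e => by subst e; nlinarith [mul_self_nonneg ((l : Fin n → ℝ) i)]
  cases n with
  | zero => exact i.elim0
  | succ m =>
    by_cases hj : ∃ k, nv A j k ≠ 0
    · rw [dfac_other hlj hj]
      have hk := hj.choose_spec
      set k := hj.choose
      set q : A := ⟨flp i j, hA.flip i j j.2⟩
      have hqj : q ≠ j := fun e => by
        have := congrFun (congrArg Subtype.val e) i
        simp only [q, flp_same] at this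
        rw [show (j : Fin (m + 1) → ℝ) i = 0 by linarith, zero_mul] at hsign
        linarith
      rw [fac_eq_zero (b := el (nv A) j k) (hA.rNonDeg j k hk).2
        (q := q) (fun e => hl (congrArg Subtype.val e).symm), mul_zero]
      intro y hy hyl
      have hx := ins_mem_facet (nv A) j hk (fun _ => 1) hy
      have hxj : ins (nv A j) k 1 y ⬝ᵥ nv A j = 1 := ins_dot _ _ hk _ _
      have hxl : ins (nv A j) k 1 y ⬝ᵥ nv A l = 1 := by
        rw [ins_dot_other _ hlj hk, hyl]
        simp [ec, hlj]
      set x := ins (nv A j) k 1 y with hxdef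
      have h1 := hx q
      have h2 := hx ⟨flp i l, hA.flip i l l.2⟩
      simp only [nv, q, dot_flp'] at h1 h2 hxj hxl
      have hxi : x i = 0 := by
        by_contra hne
        have hp1 : 0 ≤ x i * (j : Fin (m + 1) → ℝ) i := by linarith
        have hp2 : 0 ≤ x i * (l : Fin (m + 1) → ℝ) i := by linarith
        nlinarith [mul_nonneg hp1 hp2, mul_self_pos.2 hne]
      have hxq : x ⬝ᵥ nv A q = 1 := by
        simp only [nv, q, dot_flp', hxi, zero_mul, mul_zero, sub_zero, hxj]
      rw [hxdef, ins_dot_other _ hqj hk] at hxq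
      simp only [ec, hqj, if_false]
      linarith
    · simp [dfac, hj]

/-- Perturbations with at most two odd coordinates. -/
lemma Phi_nonpos_two (hA : Sys A) (O : Finset (Fin n)) (hO : O.card ≤ 2) (g : A → ℝ)
    (heven : ∀ a b : A, (b : Fin n → ℝ) = -a → g b = g a)
    (hinv : ∀ i, i ∉ O → refl hA i g = g) : Phi A g ≤ 0 := by
  have hgood : ∀ t, Good Oᶜ (poly (nv A) (cst g t)) := fun t => by
    refine ⟨Metric.isCompact_of_isClosed_isBounded ?_ ?_, ?_, ?_⟩
    · simp only [poly, Set.ofPred_forall]
      exact isClosed_iInter fun a => isClosed_le (continuous_dot _) continuous_const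
    · obtain ⟨R, hR⟩ := hA.bdd (cst g t)
      refine (Metric.isBounded_closedBall (x := (0 : Fin n → ℝ)) (r := max R 0)).subset fun x hx => ?_
      rw [mem_closedBall_zero_iff, pi_norm_le_iff_of_nonneg (le_max_right _ _)]
      exact fun k => (hR x hx k).trans (le_max_left _ _)
    · intro x hx a
      have := hx ⟨-a, hA.neg a a.2⟩
      simp only [cst, heven a ⟨-a, hA.neg a a.2⟩ rfl, nv, dotProduct_neg] at this
      simpa [cst, neg_dotProduct] using this
    · intro i hi x hx a
      have := hx ⟨flp i a, hA.flip i a a.2⟩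
      have e := congrFun (hinv i (Finset.mem_compl.1 hi)) a
      simp only [refl] at e
      simp only [cst, e, nv, dot_flp] at this
      exact this
  have hcard : n ≤ Oᶜ.card + 2 := by
    rw [Finset.card_compl, Fintype.card_fin]
    omega
  have hmid : ∀ t, psi A g t + psi A g (-t) ≤ 2 * psi A g 0 := fun t => by
    have h := logBM_reflections (l := (1 / 2 : ℝ)) (by norm_num) (by norm_num) n Oᶜ hcard _ _
      (hgood t) (hgood (-t))
    have hsub : logBody (poly (nv A) (cst g t)) (poly (nv A) (cst g (-t))) (1 / 2)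
        ⊆ poly (nv A) (cst g 0) := fun x hx a => by
      refine (hx a).trans ?_
      have hs : ∀ s, supp (poly (nv A) (cst g s)) a ≤ cst g s a := fun s =>
        Real.sSup_le (by rintro _ ⟨y, hy, rfl⟩; exact hy a) (Real.exp_pos _).le
      have hn : ∀ s, 0 ≤ supp (poly (nv A) (cst g s)) a := fun s =>
        supp_nonneg (hgood s) ⟨0, fun b => by simp [cst, (Real.exp_pos _).le]⟩ a
      calc supp (poly (nv A) (cst g t)) a ^ (1 - 1 / 2 : ℝ)
            * supp (poly (nv A) (cst g (-t))) a ^ (1 / 2 : ℝ)
          ≤ cst g t a ^ (1 - 1 / 2 : ℝ) * cst g (-t) a ^ (1 / 2 : ℝ) :=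
            mul_le_mul (Real.rpow_le_rpow (hn t) (hs t) (by norm_num))
              (Real.rpow_le_rpow (hn _) (hs _) (by norm_num)) (Real.rpow_nonneg (hn _) _)
              (Real.rpow_nonneg (Real.exp_pos _).le _)
        _ = cst g 0 a := by
            simp only [cst, ← Real.exp_mul, ← Real.exp_add]
            congr 1
            ring
    have h' := ENNReal.toReal_mono (volume_poly_lt hA.bdd _).ne (h.trans (measure_mono hsub))
    rw [ENNReal.toReal_mul, ← ENNReal.toReal_rpow, ← ENNReal.toReal_rpow] at h'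
    have p1 := pv_pos hA g t
    have p2 := pv_pos hA g (-t)
    have := Real.log_le_log (by positivity) (show pv (nv A) (cst g t) ^ (1 - 1 / 2 : ℝ)
      * pv (nv A) (cst g (-t)) ^ (1 / 2 : ℝ) ≤ pv (nv A) (cst g 0) from h')
    rw [Real.log_mul (Real.rpow_pos_of_pos p1 _).ne' (Real.rpow_pos_of_pos p2 _).ne',
      Real.log_rpow p1, Real.log_rpow p2] at this
    simp only [psi]
    linarith
  have h := second_nonpos (hasDerivAt_psi hA g) (hasDerivAt_dpsi hA g) (.of_forall hmid)
  have hp := pv_pos hA g 0
  rw [cst_zero] at hp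
  exact (div_le_iff₀ (by positivity)).1 h |>.trans (by simp)

/-- Perturbations with a parity in every coordinate. -/
lemma Phi_nonpos_parity (hA : Sys A) (g : A → ℝ)
    (heven : ∀ a b : A, (b : Fin n → ℝ) = -a → g b = g a)
    (hpar : ∀ i, refl hA i g = g ∨ refl hA i g = -g) : Phi A g ≤ 0 := by
  classical
  by_cases hO : (Finset.univ.filter fun i => refl hA i g ≠ g).card ≤ 2
  · exact Phi_nonpos_two hA _ hO g heven fun i hi => by simpa using hi
  push Not at hO
  obtain ⟨i, hi, i', hi', hii⟩ := Finset.one_lt_card.1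
    (show 1 < (Finset.univ.filter fun i => refl hA i g ≠ g).card by omega)
  simp only [Finset.mem_filter, Finset.mem_univ, true_and] at hi hi'
  have odd : ∀ k, refl hA k g ≠ g → ∀ a : A, g ⟨flp k a, hA.flip k a a.2⟩ = -g a :=
    fun k hk a => congrFun ((hpar k).resolve_left hk) a
  have hzero : ∀ k, refl hA k g ≠ g → ∀ a : A, (a : Fin n → ℝ) k = 0 → g a = 0 := fun k hk a ha => by
    have := odd k hk a
    rw [show (⟨flp k a, hA.flip k a a.2⟩ : A) = a from Subtype.ext (by
      funext p
      by_cases hp : p = k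
      · subst hp; simp [flp, ha]
      · simp [flp, hp])] at this
    linarith
  set s : A → ℝ := fun a => if 0 ≤ (a : Fin n → ℝ) i * (a : Fin n → ℝ) i' then 1 else -1 with hs
  set u : A → ℝ := fun a => s a * |g a| with hu
  have habs : ∀ k (a : A), |g ⟨flp k a, hA.flip k a a.2⟩| = |g a| := fun k a => by
    rcases hpar k with h | h
    · exact congrArg abs (congrFun h a)
    · exact (congrArg abs (congrFun h a)).trans (abs_neg _)
  have hu_even : ∀ a b : A, (b : Fin n → ℝ) = -a → u b = u a := fun a b hb => by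
    simp [hu, hs, hb, heven a b hb]
  have hu_other : ∀ k, k ≠ i → k ≠ i' → ∀ a : A, u ⟨flp k a, hA.flip k a a.2⟩ = u a :=
    fun k h1 h2 a => by
      simp only [hu, hs, habs, flp_other h1.symm, flp_other h2.symm]
  have hu_odd : ∀ k, (k = i ∨ k = i') → ∀ a : A, u ⟨flp k a, hA.flip k a a.2⟩ = -u a :=
    fun k hk a => by
      simp only [hu, hs, habs]
      rcases eq_or_ne ((a : Fin n → ℝ) i * (a : Fin n → ℝ) i') 0 with h0 | h0
      · have : g a = 0 := by
          rcases mul_eq_zero.1 h0 with h | h
          exacts [hzero i hi a h, hzero i' hi' a h]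
        simp [this]
      · have : flp k a i * flp k a i' = -((a : Fin n → ℝ) i * (a : Fin n → ℝ) i') := by
          rcases hk with rfl | rfl
          · rw [flp_same, flp_other hii.symm]; ring
          · rw [flp_same, flp_other hii]; ring
        simp only [this]
        rcases h0.lt_or_gt with h | h
        · rw [if_pos (by linarith), if_neg h.not_ge]; ring
        · rw [if_neg (by linarith), if_pos h.le]; ring
  have hT := Phi_nonpos_two hA {i, i'} Finset.card_le_two u hu_even fun k hk => by
    simp only [Finset.mem_insert, Finset.mem_singleton, not_or] at hk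
    exact funext (hu_other k hk.1 hk.2)
  refine le_trans ?_ hT
  have hlin : ∀ v : A → ℝ, refl hA i v = -v → ∑ j, fac (nv A) (fun _ => 1) j * v j = 0 := by
    intro v hv
    have := lin_refl hA i v
    rw [hv] at this
    simp only [Pi.neg_apply, mul_neg, Finset.sum_neg_distrib] at this
    linarith
  have hsq : ∀ a : A, u a * u a = g a * g a := fun a => by
    have : s a * s a = 1 := by simp only [hs]; split_ifs <;> norm_num
    rw [hu, mul_mul_mul_comm, this, one_mul, abs_mul_abs_self]
  have hterm : ∀ j l : A, dfac (nv A) (fun _ => 1) j l * g l * g j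
      ≤ dfac (nv A) (fun _ => 1) j l * u l * u j := fun j l => by
    rw [mul_assoc, mul_assoc]
    rcases eq_or_ne l j with rfl | hlj
    · rw [hsq]
    rcases eq_or_ne (g l * g j) 0 with h0 | h0
    · have : |g l| * |g j| = 0 := by rw [← abs_mul, h0, abs_zero]
      rw [h0, show u l * u j = s l * s j * (|g l| * |g j|) by simp only [hu]; ring, this]
      simp
    have hcase : ∀ k, (k = i ∨ k = i') → refl hA k g ≠ g →
        (j : Fin n → ℝ) k * (l : Fin n → ℝ) k < 0 →
        dfac (nv A) (fun _ => 1) j l * (g l * g j) ≤ dfac (nv A) (fun _ => 1) j l * (u l * u j) := by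
      intro k hk hodd hneg
      by_cases hm : (l : Fin n → ℝ) = flp k j
      · have e : l = ⟨flp k j, hA.flip k j j.2⟩ := Subtype.ext hm
        have e2 : u l * u j = g l * g j := by
          rw [e, hu_odd k hk, odd k hodd, neg_mul, neg_mul, hsq]
        rw [e2]
      · rw [ridge_zero hA k hneg hm, zero_mul, zero_mul]
    have hne : ∀ k, refl hA k g ≠ g → (j : Fin n → ℝ) k ≠ 0 ∧ (l : Fin n → ℝ) k ≠ 0 := fun k hk =>
      ⟨fun e => h0 (by rw [hzero k hk j e, mul_zero]),
        fun e => h0 (by rw [hzero k hk l e, zero_mul])⟩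
    by_cases h1 : (j : Fin n → ℝ) i * (l : Fin n → ℝ) i < 0
    · exact hcase i (Or.inl rfl) hi h1
    by_cases h2 : (j : Fin n → ℝ) i' * (l : Fin n → ℝ) i' < 0
    · exact hcase i' (Or.inr rfl) hi' h2
    refine mul_le_mul_of_nonneg_left ?_ (dfac_nonneg _ hlj)
    have hpos : 0 < ((l : Fin n → ℝ) i * (l : Fin n → ℝ) i')
        * ((j : Fin n → ℝ) i * (j : Fin n → ℝ) i') := by
      have := mul_pos ((not_lt.1 h1).lt_of_ne (mul_ne_zero (hne i hi).1 (hne i hi).2).symm)
        ((not_lt.1 h2).lt_of_ne (mul_ne_zero (hne i' hi').1 (hne i' hi').2).symm)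
      linarith
    have hss : s l * s j = 1 := by
      simp only [hs]
      rcases pos_and_pos_or_neg_and_neg_of_mul_pos hpos with ⟨a, b⟩ | ⟨a, b⟩
      · simp [a.le, b.le]
      · simp [a.not_ge, b.not_ge]
    rw [hu, mul_mul_mul_comm, hss, one_mul, ← abs_mul]
    exact le_abs_self _
  have hu_i : refl hA i u = -u := funext (hu_odd i (Or.inl rfl))
  simp only [Phi, hlin g ((hpar i).resolve_left hi), hlin u hu_i, hsq]
  refine sub_le_sub_right (mul_le_mul_of_nonneg_left (add_le_add le_rfl ?_)
    ENNReal.toReal_nonneg) _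
  exact Finset.sum_le_sum fun j _ => Finset.sum_le_sum fun l _ => hterm j l

/-- Every even perturbation. -/
theorem Phi_nonpos (hA : Sys A) (g : A → ℝ)
    (heven : ∀ a b : A, (b : Fin n → ℝ) = -a → g b = g a) : Phi A g ≤ 0 := by
  suffices h : ∀ D : Finset (Fin n), ∀ g : A → ℝ,
      (∀ a b : A, (b : Fin n → ℝ) = -a → g b = g a) →
      (∀ i, i ∉ D → refl hA i g = g ∨ refl hA i g = -g) → Phi A g ≤ 0 from
    h Finset.univ g heven fun i hi => absurd (Finset.mem_univ i) hi
  intro D
  induction D using Finset.induction with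
  | empty => exact fun g he hp => Phi_nonpos_parity hA g he fun i => hp i (Finset.notMem_empty i)
  | insert k D hk ih =>
    intro g he hp
    have hcomm : ∀ a b : A, (b : Fin n → ℝ) = -a → refl hA k g b = refl hA k g a := fun a b hb =>
      he _ _ (by simp [hb, flp_neg])
    set p : A → ℝ := fun a => (g a + refl hA k g a) / 2 with hp'
    set q : A → ℝ := fun a => (g a - refl hA k g a) / 2 with hq'
    have hrr : ∀ a : A, refl hA k g ⟨flp k a, hA.flip k a a.2⟩ = g a := fun a => by
      simp [refl, flp_flp]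
    have hsplit : ∀ i, i ∉ D → (refl hA i p = p ∨ refl hA i p = -p) ∧
        (refl hA i q = q ∨ refl hA i q = -q) := by
      intro i hi
      by_cases hik : i = k
      · subst hik
        refine ⟨Or.inl (funext fun a => ?_), Or.inr (funext fun a => ?_)⟩
        · simp only [refl, hp'] at hrr ⊢
          rw [hrr a]; ring
        · simp only [refl, hq', Pi.neg_apply] at hrr ⊢
          rw [hrr a]; ring
      have hsw : ∀ a : A, (⟨flp k (flp i a), hA.flip k _ (hA.flip i a a.2)⟩ : A)
          = ⟨flp i (flp k a), hA.flip i _ (hA.flip k a a.2)⟩ :=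
        fun a => Subtype.ext (flp_comm k i _)
      rcases hp i (by simp [hik, hi]) with h | h
      · have h' : ∀ a : A, g ⟨flp i a, hA.flip i a a.2⟩ = g a := congrFun h
        refine ⟨Or.inl (funext fun a => ?_), Or.inl (funext fun a => ?_)⟩ <;>
          simp only [refl, hp', hq', hsw] <;> rw [h', h' ⟨flp k a, hA.flip k a a.2⟩]
      · have h' : ∀ a : A, g ⟨flp i a, hA.flip i a a.2⟩ = -g a := congrFun h
        refine ⟨Or.inr (funext fun a => ?_), Or.inr (funext fun a => ?_)⟩ <;>
          simp only [refl, hp', hq', hsw, Pi.neg_apply] <;>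
          rw [h', h' ⟨flp k a, hA.flip k a a.2⟩] <;> ring
    have P1 := ih p (fun a b hb => by simp [hp', he a b hb, hcomm a b hb])
      fun i hi => (hsplit i hi).1
    have P2 := ih q (fun a b hb => by simp [hq', he a b hb, hcomm a b hb])
      fun i hi => (hsplit i hi).2
    have hsym := Phi_refl hA k g
    have e1 : g = fun a => p a + q a := funext fun a => by simp [hp', hq']; ring
    have e2 : refl hA k g = fun a => p a - q a := funext fun a => by simp [hp', hq']; ring
    have par : Phi A g + Phi A (refl hA k g) = 2 * Phi A p + 2 * Phi A q := by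
      rw [e2]
      conv_lhs => arg 1; rw [e1]
      simp only [Phi, mul_add, add_mul, mul_sub, sub_mul, Finset.sum_add_distrib,
        Finset.sum_sub_distrib]
      ring
    linarith

/-- The local inequality for the normalised system. -/
theorem local_poly (hA : Sys A) (g : A → ℝ)
    (heven : ∀ a b : A, (b : Fin n → ℝ) = -a → g b = g a) {ε : ℝ} (hε : 0 < ε) :
    ∀ᶠ t in 𝓝 0, pv (nv A) (cst g t) * pv (nv A) (cst g (-t))
      ≤ Real.exp (ε * t ^ 2) * pv (nv A) (fun _ => 1) ^ 2 := by
  filter_upwards [second_le (hasDerivAt_psi hA g) (hasDerivAt_dpsi hA g) hε] with t ht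
  have hD : Phi A g / pv (nv A) (fun _ => 1) ^ 2 ≤ 0 :=
    div_nonpos_of_nonpos_of_nonneg (Phi_nonpos hA g heven) (sq_nonneg _)
  have p0 := pv_pos hA g 0
  rw [cst_zero] at p0
  have p1 := pv_pos hA g t
  have p2 := pv_pos hA g (-t)
  simp only [psi, cst_zero] at ht
  rw [← Real.log_le_log_iff (by positivity) (by positivity), Real.log_mul p1.ne' p2.ne',
    Real.log_mul (Real.exp_pos _).ne' (by positivity), Real.log_exp, Real.log_pow]
  push_cast
  nlinarith [mul_nonneg (neg_nonneg.2 hD) (sq_nonneg t)]

end Vale.Agent.P227.Local
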