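import Vale.Agent.P227.Local.Form

/-!
Reduction of an unconditional polytope to the vertices of its polar, and the transfer to linear
images.
-/

open Set MeasureTheory Matrix Filter Topology
open scoped ENNReal

namespace Vale.Agent.P227.Local

variable {n : ℕ}

lemma flp_add_smul (i : Fin n) (s t : ℝ) (x y : Fin n → ℝ) :
    flp i (s • x + t • y) = s • flp i x + t • flp i y := by
  funext k
  by_cases h : k = i
  · subst h; simp [flp]; ring
  · simp [flp, h]

/-- Coordinatewise signs. -/
def sgnMul (σ : Fin n → Bool) (a : Fin n → ℝ) : Fin n → ℝ :=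
  fun k => if σ k then -a k else a k

lemma exists_sys (A : Finset (Fin n → ℝ)) {K : Set (Fin n → ℝ)}
    (hK : K = {x | ∀ a ∈ A, x ⬝ᵥ a ≤ 1}) (hKb : Bornology.IsBounded K)
    (hsym : ∀ i, ∀ x ∈ K, flp i x ∈ K) :
    ∃ B : Finset (Fin n → ℝ), Sys B ∧ poly (nv B) (fun _ => 1) = K := by
  classical
  set A' : Finset (Fin n → ℝ) := (((A.filter (· ≠ 0)) ×ˢ (Finset.univ : Finset (Fin n → Bool)))).image
    fun q => sgnMul q.2 q.1 with hA'
  have mem' : ∀ b, b ∈ A' ↔ ∃ a ∈ A, a ≠ 0 ∧ ∃ σ, sgnMul σ a = b := fun b => by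
    simp [hA', and_assoc]
  have fmem : ∀ i, ∀ b ∈ A', flp i b ∈ A' := by
    intro i b hb
    obtain ⟨a, ha, ha0, σ, rfl⟩ := (mem' b).1 hb
    refine (mem' _).2 ⟨a, ha, ha0, Function.update σ i (!σ i), ?_⟩
    funext k
    by_cases h : k = i
    · subst h; cases hσ : σ k <;> simp [sgnMul, flp, hσ]
    · simp [sgnMul, flp, h]
  have nmem : ∀ b ∈ A', -b ∈ A' := by
    intro b hb
    obtain ⟨a, ha, ha0, σ, rfl⟩ := (mem' b).1 hb
    refine (mem' _).2 ⟨a, ha, ha0, fun k => !σ k, ?_⟩
    funext k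
    cases hσ : σ k <;> simp [sgnMul, hσ]
  have sgnK : ∀ σ : Fin n → Bool, ∀ x ∈ K, sgnMul σ x ∈ K := by
    intro σ
    suffices h : ∀ D : Finset (Fin n), ∀ σ : Fin n → Bool, (∀ k, k ∉ D → σ k = false) →
        ∀ x ∈ K, sgnMul σ x ∈ K from h Finset.univ σ fun k hk => absurd (Finset.mem_univ k) hk
    intro D
    induction D using Finset.induction with
    | empty =>
      intro σ h x hx
      have : sgnMul σ x = x := funext fun k => by simp [sgnMul, h k (Finset.notMem_empty k)]
      rwa [this]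
    | insert i D hi ih =>
      intro σ h x hx
      have hx' := ih (Function.update σ i false) (fun k hk => by
        by_cases hki : k = i
        · subst hki; simp
        · simp [hki, h k (by simp [hki, hk])]) x hx
      cases hσ : σ i
      · rwa [show Function.update σ i false = σ by rw [← hσ, Function.update_eq_self]] at hx'
      · convert hsym i _ hx' using 1
        funext k
        by_cases hki : k = i
        · subst hki; simp [sgnMul, flp, hσ]
        · simp [sgnMul, flp, hki]
  have hK' : ∀ x, x ∈ K ↔ ∀ b ∈ A', x ⬝ᵥ b ≤ 1 := by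
    intro x
    constructor
    · intro hx b hb
      obtain ⟨a, ha, -, σ, rfl⟩ := (mem' b).1 hb
      have h := sgnK σ x hx
      rw [hK] at h
      refine le_of_eq_of_le (Finset.sum_congr rfl fun k _ => ?_) (h a ha)
      cases hσ : σ k <;> simp [sgnMul, hσ]
    · intro h
      rw [hK]
      intro a ha
      rcases eq_or_ne a 0 with rfl | h0
      · simp
      · exact h a ((mem' a).2 ⟨a, ha, h0, fun _ => false, funext fun k => by simp [sgnMul]⟩)
  set H := convexHull ℝ (A' : Set (Fin n → ℝ)) with hH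
  have hHc : IsCompact H := A'.finite_toSet.isCompact_convexHull ℝ
  set B := A'.filter (· ∈ H.extremePoints ℝ) with hB
  have hBA : ∀ b, b ∈ B ↔ b ∈ H.extremePoints ℝ := fun b => by
    refine ⟨fun h => (Finset.mem_filter.1 h).2, fun h => Finset.mem_filter.2 ⟨?_, h⟩⟩
    exact extremePoints_convexHull_subset h
  have hull : H = convexHull ℝ (B : Set (Fin n → ℝ)) := by
    conv_lhs => rw [← closure_convexHull_extremePoints hHc (convex_convexHull ℝ _)]
    rw [show H.extremePoints ℝ = (B : Set (Fin n → ℝ)) from Set.ext fun b => (hBA b).symm,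
      (B.finite_toSet.isClosed_convexHull ℝ).closure_eq]
  have hpoly : poly (nv B) (fun _ => 1) = K := by
    ext x
    rw [hK']
    constructor
    · intro h b hb
      have hsub : convexHull ℝ (B : Set (Fin n → ℝ)) ⊆ {a | x ⬝ᵥ a ≤ 1} := by
        refine convexHull_min (fun a ha => h ⟨a, ha⟩) (convex_halfSpace_le ⟨?_, ?_⟩ 1)
        · exact fun a c => dotProduct_add x a c
        · exact fun s a => dotProduct_smul s x a
      exact hsub (hull ▸ subset_convexHull ℝ _ hb)
    · exact fun h l => h l (Finset.mem_filter.1 l.2).1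
  refine ⟨B, ?_, hpoly⟩
  have trans : ∀ f : (Fin n → ℝ) → (Fin n → ℝ), (∀ x, f (f x) = x) →
      (∀ (s t : ℝ) (x y : Fin n → ℝ), f (s • x + t • y) = s • f x + t • f y) →
      (∀ b ∈ A', f b ∈ A') → ∀ b ∈ B, f b ∈ B := by
    intro f hf hlin hA b hb
    have hfH : ∀ x ∈ H, f x ∈ H := by
      intro x hx
      have : convexHull ℝ (A' : Set (Fin n → ℝ)) ⊆ f ⁻¹' H := by
        refine convexHull_min (fun a ha => subset_convexHull ℝ _ (hA a ha)) fun y hy z hz s t hs ht hst => ?_
        rw [mem_preimage, hlin]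
        exact convex_convexHull ℝ _ hy hz hs ht hst
      exact this hx
    have hb' := (hBA b).1 hb
    rw [hBA, mem_extremePoints]
    rw [mem_extremePoints] at hb'
    refine ⟨hfH b hb'.1, fun x hx y hy hxy => ?_⟩
    obtain ⟨s, t, hs, ht, hst, he⟩ := hxy
    have h2 := hb'.2 (f x) (hfH x hx) (f y) (hfH y hy) ⟨s, t, hs, ht, hst, by rw [← hlin, he, hf]⟩
    exact ⟨by rw [← h2.1, hf], by rw [← h2.2, hf]⟩
  refine ⟨fun i => trans (flp i) (flp_flp i) (flp_add_smul i) (fmem i), trans (fun x => -x)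
    neg_neg (fun s t x y => by simp only [smul_neg]; abel) nmem, fun b hb => ?_, fun c => ?_, ?_⟩
  · obtain ⟨a, -, ha0, σ, rfl⟩ := (mem' b).1 (Finset.mem_filter.1 hb).1
    intro h
    refine ha0 (funext fun k => ?_)
    have := congrFun h k
    cases hσ : σ k <;> simpa [sgnMul, hσ] using this
  · obtain ⟨R, hR⟩ := hKb.exists_norm_le
    set M := 1 + ∑ b : B, |c b|
    have hM : 0 < M := add_pos_of_pos_of_nonneg one_pos (Finset.sum_nonneg fun b _ => abs_nonneg _)
    refine ⟨M * R, fun x hx k => ?_⟩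
    have hmem : M⁻¹ • x ∈ K := by
      rw [← hpoly]
      intro b
      rw [smul_dotProduct, smul_eq_mul, inv_mul_le_iff₀ hM, mul_one]
      refine (hx b).trans ((le_abs_self _).trans ?_)
      linarith [Finset.single_le_sum (f := fun b : B => |c b|) (fun _ _ => abs_nonneg _)
        (Finset.mem_univ b)]
    have := (norm_le_pi_norm (M⁻¹ • x) k).trans (hR _ hmem)
    rw [Pi.smul_apply, smul_eq_mul, Real.norm_eq_abs, abs_mul, abs_inv, abs_of_pos hM,
      inv_mul_le_iff₀ hM] at this
    exact this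
  · intro j hj p hp q hq hjp hjq hpq r he
    have ej := (hBA j).1 hj
    have ep := (hBA p).1 hp
    have eq' := (hBA q).1 hq
    rw [mem_extremePoints] at ej ep eq'
    rcases eq_or_ne r 0 with h0 | h0
    · exact hjq (by rw [he, h0]; simp)
    rcases eq_or_ne r 1 with h1 | h1
    · exact hpq (by rw [he, h1]; simp)
    rcases lt_or_gt_of_ne h0 with hneg | hpos
    · have h : j ∈ openSegment ℝ q p := by
        have h1r : 0 < 1 - r := by linarith
        refine ⟨1 / (1 - r), -r / (1 - r), by positivity, div_pos (by linarith) h1r,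
          by field_simp; ring, ?_⟩
        rw [he]
        funext k
        simp only [Pi.add_apply, Pi.smul_apply, smul_eq_mul]
        field_simp
        ring
      exact hjq (ej.2 q eq'.1 p ep.1 h).1.symm
    rcases lt_or_gt_of_ne h1 with hlt | hgt
    · exact hpq (eq'.2 p ep.1 j ej.1 ⟨r, 1 - r, hpos, by linarith, by ring, he.symm⟩).1
    · have h : p ∈ openSegment ℝ q j := by
        refine ⟨1 / r, 1 - 1 / r, by positivity, ?_, by ring, ?_⟩
        · rw [sub_pos, div_lt_one hpos]; exact hgt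
        · rw [he]
          funext k
          simp only [Pi.add_apply, Pi.smul_apply, smul_eq_mul]
          field_simp
          ring
      exact hpq (ep.2 q eq'.1 j ej.1 h).1.symm

/-- The body cut out by all valid normals, with their constants perturbed. -/
def pert (K : Set (Fin n → ℝ)) (g : (Fin n → ℝ) → ℝ) (t : ℝ) : Set (Fin n → ℝ) :=
  {x | ∀ a, a ≠ 0 → (∀ y ∈ K, y ⬝ᵥ a ≤ 1) → x ⬝ᵥ a ≤ Real.exp (t * g a)}

theorem local_coord (A : Finset (Fin n → ℝ)) {K : Set (Fin n → ℝ)}
    (hK : K = {x | ∀ a ∈ A, x ⬝ᵥ a ≤ 1}) (hKb : Bornology.IsBounded K)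
    (hsym : ∀ i, ∀ x ∈ K, flp i x ∈ K) (g : (Fin n → ℝ) → ℝ) (hg : ∀ a, g (-a) = g a)
    {ε : ℝ} (hε : 0 < ε) :
    ∀ᶠ t in 𝓝 0, volume (pert K g t) * volume (pert K g (-t))
      ≤ ENNReal.ofReal (Real.exp (ε * t ^ 2)) * volume K ^ 2 := by
  obtain ⟨B, hB, hBK⟩ := exists_sys A hK hKb hsym
  set G : B → ℝ := fun b => g b
  have hev : ∀ a b : B, (b : Fin n → ℝ) = -a → G b = G a := fun a b h => by simp [G, h, hg]
  filter_upwards [local_poly hB G hev hε] with t ht
  have hsub : ∀ s, pert K g s ⊆ poly (nv B) (cst G s) := fun s x hx b =>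
    hx b (hB.nz b b.2) fun y hy => by rw [← hBK] at hy; exact hy b
  have e : ∀ c, volume (poly (nv B) c) = ENNReal.ofReal (pv (nv B) c) := fun c =>
    (ENNReal.ofReal_toReal (volume_poly_lt hB.bdd c).ne).symm
  refine (mul_le_mul' (measure_mono (hsub t)) (measure_mono (hsub (-t)))).trans ?_
  rw [e, e, ← ENNReal.ofReal_mul (show 0 ≤ pv (nv B) (cst G t) from ENNReal.toReal_nonneg), ← hBK,
    e (fun _ => 1), ← ENNReal.ofReal_pow (show 0 ≤ pv (nv B) (fun _ => 1) from ENNReal.toReal_nonneg),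
    ← ENNReal.ofReal_mul (Real.exp_pos _).le]
  exact ENNReal.ofReal_le_ofReal ht

end Vale.Agent.P227.Local
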