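import Mathlib

/-!
The volume of a polytope as a function of the constants of its inequalities: it is differentiable
with the facet volumes as partial derivatives, and these are again volumes of polytopes.
-/

open Set MeasureTheory Matrix Filter Topology Metric
open scoped ENNReal

namespace Vale.Agent.P227.Local

variable {m : ℕ} {ι : Type*}

/-- The solutions of a system of linear inequalities. -/
def poly (b : ι → Fin m → ℝ) (c : ι → ℝ) : Set (Fin m → ℝ) := {x | ∀ l, x ⬝ᵥ b l ≤ c l}

/-- Their volume. -/
noncomputable def pv (b : ι → Fin m → ℝ) (c : ι → ℝ) : ℝ := (volume (poly b c)).toReal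

/-- All these sets are bounded. -/
def Bdd (b : ι → Fin m → ℝ) : Prop := ∀ c, ∃ R : ℝ, ∀ x ∈ poly b c, ∀ k, |x k| ≤ R

/-- No inequality degenerates to an equality. -/
def NonDeg (b : ι → Fin m → ℝ) (c : ι → ℝ) : Prop := ∀ l, b l ≠ 0 ∨ c l ≠ 0

lemma measurableSet_poly [Countable ι] (b : ι → Fin m → ℝ) (c : ι → ℝ) :
    MeasurableSet (poly b c) := by
  rw [poly, Set.ofPred_forall]
  refine .iInter fun l => measurableSet_le ?_ measurable_const
  exact (show Continuous fun x : Fin m → ℝ => x ⬝ᵥ b l by unfold dotProduct; fun_prop).measurable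

lemma volume_poly_lt {b : ι → Fin m → ℝ} (hb : Bdd b) (c : ι → ℝ) : volume (poly b c) < ∞ := by
  obtain ⟨R, hR⟩ := hb c
  refine (measure_mono (t := Icc (fun _ => -R) (fun _ => R)) fun x hx => ?_).trans_lt
    measure_Icc_lt_top
  exact ⟨fun k => (abs_le.1 (hR x hx k)).1, fun k => (abs_le.1 (hR x hx k)).2⟩

/-- The point on the hyperplane of value `u`. -/
noncomputable def ins (b : Fin (m + 1) → ℝ) (k : Fin (m + 1)) (u : ℝ) (y : Fin m → ℝ) :
    Fin (m + 1) → ℝ :=
  k.insertNth ((u - y ⬝ᵥ fun p => b (k.succAbove p)) / b k) y

lemma dot_insert (a : Fin (m + 1) → ℝ) (k : Fin (m + 1)) (z : ℝ) (y : Fin m → ℝ) :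
    k.insertNth z y ⬝ᵥ a = z * a k + y ⬝ᵥ fun p => a (k.succAbove p) := by
  simp [dotProduct, Fin.sum_univ_succAbove _ k]

lemma ins_dot (b : Fin (m + 1) → ℝ) (k : Fin (m + 1)) (hk : b k ≠ 0) (u : ℝ) (y : Fin m → ℝ) :
    ins b k u y ⬝ᵥ b = u := by
  rw [ins, dot_insert, div_mul_cancel₀ _ hk, sub_add_cancel]

lemma ins_succAbove (b : Fin (m + 1) → ℝ) (k : Fin (m + 1)) (u : ℝ) (y : Fin m → ℝ) (p : Fin m) :
    ins b k u y (k.succAbove p) = y p := by
  simp [ins]

/-- Slicing by the level sets of a linear form. -/
lemma volume_slices {b : Fin (m + 1) → ℝ} {k : Fin (m + 1)} (hk : b k ≠ 0)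
    {S : Set (Fin (m + 1) → ℝ)} (hS : MeasurableSet S) :
    volume S = ENNReal.ofReal |(b k)⁻¹| * ∫⁻ u, volume {y | ins b k u y ∈ S} ∧
      Measurable fun u => volume {y | ins b k u y ∈ S} := by
  set β := b k
  set d : (Fin m → ℝ) → ℝ := fun y => y ⬝ᵥ fun p => b (k.succAbove p) with hd
  have hdc : Continuous d := by unfold d dotProduct; fun_prop
  have hins : Measurable fun q : ℝ × (Fin m → ℝ) => ins b k q.1 q.2 := by
    unfold ins
    exact (Continuous.finInsertNth k ((continuous_fst.sub (hdc.comp continuous_snd)).div_const _)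
      continuous_snd).measurable
  have hins' : Measurable fun q : ℝ × (Fin m → ℝ) => k.insertNth (α := fun _ => ℝ) q.1 q.2 :=
    (Continuous.finInsertNth k continuous_fst continuous_snd).measurable
  set S' : Set (ℝ × (Fin m → ℝ)) := (fun q => ins b k q.1 q.2) ⁻¹' S with hS'
  have hS'm : MeasurableSet S' := hins hS
  refine ⟨?_, measurable_measure_prodMk_left hS'm⟩
  set Z : Set (ℝ × (Fin m → ℝ)) := (fun q => k.insertNth (α := fun _ => ℝ) q.1 q.2) ⁻¹' S with hZ
  have hp := volume_preserving_piFinSuccAbove (fun _ : Fin (m + 1) => ℝ) k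
  have h1 : volume S = (volume.prod volume) Z := by
    rw [← hp.symm.measure_preimage hS.nullMeasurableSet]
    rfl
  have h2 : ∀ y, volume ((fun z => (z, y)) ⁻¹' Z)
      = ENNReal.ofReal |β⁻¹| * volume ((fun u => (u, y)) ⁻¹' S') := by
    intro y
    have e : (fun z => (z, y)) ⁻¹' Z
        = (fun z => β * z) ⁻¹' ((fun w => w + d y) ⁻¹' ((fun u => (u, y)) ⁻¹' S')) := by
      ext z
      simp only [mem_preimage, hZ, hS', ins]
      rw [show (β * z + d y - d y) / β = z by rw [add_sub_cancel_right]; field_simp]
    rw [e, Real.volume_preimage_mul_left hk, measure_preimage_add_right]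
  rw [h1, Measure.prod_apply_symm (hins' hS), lintegral_congr h2,
    lintegral_const_mul _ (measurable_measure_prodMk_right hS'm),
    ← Measure.prod_apply_symm hS'm, Measure.prod_apply hS'm]
  rfl

lemma volume_hyperplane {b : Fin m → ℝ} (hb : b ≠ 0) (c : ℝ) :
    volume {x | x ⬝ᵥ b = c} = 0 := by
  obtain ⟨k, hk⟩ := Function.ne_iff.1 hb
  rcases m with _ | m
  · exact k.elim0
  rw [(volume_slices hk (measurableSet_eq_fun
    (show Continuous fun x : Fin (m + 1) → ℝ => x ⬝ᵥ b by unfold dotProduct; fun_prop).measurable
    measurable_const)).1]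
  refine mul_eq_zero.2 (Or.inr ?_)
  refine (lintegral_eq_zero_iff' (Measurable.aemeasurable ?_)).2 ?_
  · exact (volume_slices hk (measurableSet_eq_fun
      (show Continuous fun x : Fin (m + 1) → ℝ => x ⬝ᵥ b by
        unfold dotProduct; fun_prop).measurable measurable_const)).2
  filter_upwards [volume.ae_ne c] with u hu
  simp only [mem_ofPred_eq, ins_dot _ _ hk, hu, Pi.zero_apply]
  simp

variable [Fintype ι]

lemma continuousAt_pv {b : ι → Fin m → ℝ} (hb : Bdd b) {c₀ : ι → ℝ} (h : NonDeg b c₀) :
    ContinuousAt (pv b) c₀ := by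
  have e : pv b = fun c => ∫ x, (poly b c).indicator (fun _ => (1 : ℝ)) x := by
    funext c
    rw [integral_indicator_const _ (measurableSet_poly b c)]
    simp [pv, Measure.real]
  rw [e]
  refine continuousAt_of_dominated
    (bound := (poly b (fun l => c₀ l + 1)).indicator fun _ => (1 : ℝ))
    (.of_forall fun c => (measurable_const.indicator (measurableSet_poly b c)).aestronglyMeasurable)
    ?_ ?_ ?_
  · filter_upwards [Metric.ball_mem_nhds c₀ one_pos] with c hc
    refine .of_forall fun x => ?_
    rw [Real.norm_eq_abs, abs_of_nonneg (indicator_nonneg (fun _ _ => zero_le_one) x)]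
    refine indicator_le_indicator_of_subset (fun y hy l => (hy l).trans ?_)
      (fun _ => zero_le_one) x
    have := (dist_le_pi_dist c c₀ l).trans_lt hc
    rw [Real.dist_eq, abs_lt] at this
    linarith
  · exact (integrable_indicator_iff (measurableSet_poly b _)).2
      (integrableOn_const (volume_poly_lt hb _).ne)
  · have hae : ∀ᵐ x : Fin m → ℝ, ∀ l, x ⬝ᵥ b l ≠ c₀ l := by
      rw [ae_all_iff]
      intro l
      rcases eq_or_ne (b l) 0 with hl | hl
      · refine .of_forall fun x => ?_
        rw [hl, dotProduct_zero]
        exact ((h l).resolve_left (not_not.2 hl)).symm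
      · simpa [ae_iff] using volume_hyperplane hl (c₀ l)
    filter_upwards [hae] with x hx
    refine ContinuousAt.congr continuousAt_const
      (f := fun _ => (poly b c₀).indicator (fun _ => (1 : ℝ)) x) ?_
    have hev : ∀ᶠ c in 𝓝 c₀, ∀ l, (x ⬝ᵥ b l ≤ c l ↔ x ⬝ᵥ b l ≤ c₀ l) := by
      rw [eventually_all]
      intro l
      have hc : Tendsto (fun c : ι → ℝ => c l) (𝓝 c₀) (𝓝 (c₀ l)) := (continuous_apply l).tendsto _
      rcases (hx l).lt_or_gt with hl | hl
      · filter_upwards [hc.eventually (eventually_gt_nhds hl)] with c hc'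
        exact iff_of_true hc'.le hl.le
      · filter_upwards [hc.eventually (eventually_lt_nhds hl)] with c hc'
        exact iff_of_false hc'.not_ge hl.not_ge
    filter_upwards [hev] with c hc
    have hmem : x ∈ poly b c ↔ x ∈ poly b c₀ := forall_congr' hc
    by_cases hx0 : x ∈ poly b c₀ <;> simp [indicator, hmem, hx0]

variable [DecidableEq ι]

/-- The inequalities on the facet of `j`; the inequality of `j` becomes `0 ≤ 1`. -/
noncomputable def el (b : ι → Fin (m + 1) → ℝ) (j : ι) (k : Fin (m + 1)) : ι → Fin m → ℝ :=
  fun l p => if l = j then 0 else b l (k.succAbove p) - b l k / b j k * b j (k.succAbove p)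

/-- Their constants. -/
noncomputable def ec (b : ι → Fin (m + 1) → ℝ) (j : ι) (k : Fin (m + 1)) (c : ι → ℝ) : ι → ℝ :=
  fun l => if l = j then 1 else c l - b l k / b j k * c j

/-- The linear part of the constants. -/
noncomputable def lec (b : ι → Fin (m + 1) → ℝ) (j : ι) (k : Fin (m + 1)) :
    (ι → ℝ) →L[ℝ] (ι → ℝ) :=
  ContinuousLinearMap.pi fun l => if l = j then 0
    else ContinuousLinearMap.proj l - (b l k / b j k) • ContinuousLinearMap.proj j

lemma ec_eq (b : ι → Fin (m + 1) → ℝ) (j : ι) (k : Fin (m + 1)) (c : ι → ℝ) :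
    ec b j k c = lec b j k c + Pi.single j 1 := by
  funext l
  by_cases hl : l = j
  · subst hl; simp [ec, lec]
  · simp [ec, lec, hl]

lemma hasFDerivAt_ec (b : ι → Fin (m + 1) → ℝ) (j : ι) (k : Fin (m + 1)) (c : ι → ℝ) :
    HasFDerivAt (ec b j k) (lec b j k) c := by
  rw [show ec b j k = fun c => lec b j k c + Pi.single j 1 from funext (ec_eq b j k)]
  exact ((lec b j k).hasFDerivAt).add_const _

lemma ins_dot_other (b : ι → Fin (m + 1) → ℝ) {j l : ι} (hl : l ≠ j) {k : Fin (m + 1)}
    (hk : b j k ≠ 0) (u : ℝ) (y : Fin m → ℝ) :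
    ins (b j) k u y ⬝ᵥ b l = y ⬝ᵥ el b j k l + b l k / b j k * u := by
  rw [ins, dot_insert]
  simp only [el, hl, if_false, dotProduct, mul_sub, Finset.sum_sub_distrib]
  rw [show ∑ p, y p * (b l k / b j k * b j (k.succAbove p))
      = b l k / b j k * ∑ p, y p * b j (k.succAbove p) by
    rw [Finset.mul_sum]; exact Finset.sum_congr rfl fun p _ => by ring]
  field_simp
  ring

lemma el_self (b : ι → Fin (m + 1) → ℝ) (j : ι) (k : Fin (m + 1)) : el b j k j = 0 := by
  funext p; simp [el]

lemma ins_mem_iff (b : ι → Fin (m + 1) → ℝ) (j : ι) {k : Fin (m + 1)} (hk : b j k ≠ 0)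
    (c : ι → ℝ) (u : ℝ) (y : Fin m → ℝ) :
    ins (b j) k u y ∈ poly b c ↔
      u ≤ c j ∧ y ∈ poly (el b j k) (ec b j k (Function.update c j u)) := by
  constructor
  · intro h
    refine ⟨by simpa [ins_dot _ _ hk] using h j, fun l => ?_⟩
    by_cases hl : l = j
    · subst hl; simp [el_self, ec]
    · have := h l
      rw [ins_dot_other b hl hk] at this
      simp only [ec, hl, if_false, Function.update_self, Function.update_of_ne hl]
      linarith
  · rintro ⟨hu, h⟩ l
    by_cases hl : l = j
    · subst hl; simpa [ins_dot _ _ hk] using hu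
    · have := h l
      simp only [ec, hl, if_false, Function.update_self, Function.update_of_ne hl] at this
      rw [ins_dot_other b hl hk]
      linarith

lemma ins_mem_facet (b : ι → Fin (m + 1) → ℝ) (j : ι) {k : Fin (m + 1)} (hk : b j k ≠ 0)
    (c : ι → ℝ) {y : Fin m → ℝ} (hy : y ∈ poly (el b j k) (ec b j k c)) :
    ins (b j) k (c j) y ∈ poly b c := by
  rw [ins_mem_iff b j hk, Function.update_eq_self]
  exact ⟨le_rfl, hy⟩

lemma Bdd.el {b : ι → Fin (m + 1) → ℝ} (hb : Bdd b) (j : ι) {k : Fin (m + 1)} (hk : b j k ≠ 0) :
    Bdd (Local.el b j k) := fun c' => by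
  -- every system of constants is below one in the range of `ec`
  obtain ⟨R, hR⟩ := hb (Function.update c' j 0)
  refine ⟨R, fun y hy p => ?_⟩
  have hmem : ins (b j) k 0 y ∈ poly b (Function.update c' j 0) := fun l => by
    by_cases hl : l = j
    · subst hl; simp [ins_dot _ _ hk]
    · rw [ins_dot_other b hl hk, Function.update_of_ne hl]
      simpa using hy l
  simpa [ins_succAbove] using hR _ hmem (k.succAbove p)

/-- The volume along one constant. -/
lemma pv_update_sub {b : ι → Fin (m + 1) → ℝ} (hb : Bdd b) (j : ι) {k : Fin (m + 1)}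
    (hk : b j k ≠ 0) (c : ι → ℝ) (t₁ t₂ : ℝ) :
    IntervalIntegrable (fun u => pv (el b j k) (ec b j k (Function.update c j u))) volume t₁ t₂ ∧
      pv b (Function.update c j t₂) - pv b (Function.update c j t₁) =
        |(b j k)⁻¹| * ∫ u in t₁..t₂, pv (el b j k) (ec b j k (Function.update c j u)) := by
  set Φ : ℝ → ℝ≥0∞ := fun u =>
    volume (poly (el b j k) (ec b j k (Function.update c j u))) with hΦ
  have hfin : ∀ u, Φ u ≠ ∞ := fun u => (volume_poly_lt (hb.el j hk) _).ne
  have hset : ∀ t u, volume {y | ins (b j) k u y ∈ poly b (Function.update c j t)}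
      = (Iic t).indicator Φ u := fun t u => by
    simp only [ins_mem_iff b j hk, Function.update_idem, Function.update_self]
    by_cases hu : u ≤ t
    · simp [hu, hΦ]
    · simp [hu]
  have hmeas : ∀ t, Measurable ((Iic t).indicator Φ) := fun t => by
    simpa only [hset] using (volume_slices hk (measurableSet_poly b (Function.update c j t))).2
  have hvol : ∀ t, volume (poly b (Function.update c j t))
      = ENNReal.ofReal |(b j k)⁻¹| * ∫⁻ u in Iic t, Φ u := fun t => by
    rw [(volume_slices hk (measurableSet_poly b _)).1, ← lintegral_indicator measurableSet_Iic]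
    simp only [hset]
  have hlt : ∀ t, ∫⁻ u in Iic t, Φ u ≠ ∞ := fun t h => by
    have := (volume_poly_lt hb (Function.update c j t)).ne
    rw [hvol t, h, ENNReal.mul_top (by simp [hk])] at this
    exact this rfl
  have hme : ∀ t, AEMeasurable Φ (volume.restrict (Iic t)) := fun t =>
    (hmeas t).aemeasurable.congr (indicator_ae_eq_restrict measurableSet_Iic)
  have hint : ∀ t, IntegrableOn (fun u => (Φ u).toReal) (Iic t) := fun t =>
    integrable_toReal_of_lintegral_ne_top (hme t) (hlt t)
  have hpv : ∀ t, pv b (Function.update c j t)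
      = |(b j k)⁻¹| * ∫ u in Iic t, (Φ u).toReal := fun t => by
    rw [pv, hvol, ENNReal.toReal_mul, ENNReal.toReal_ofReal (abs_nonneg _),
      integral_toReal (hme t) (.of_forall fun u => (hfin u).lt_top)]
  refine ⟨⟨(hint t₂).mono_set Ioc_subset_Iic_self, (hint t₁).mono_set Ioc_subset_Iic_self⟩, ?_⟩
  rw [hpv, hpv, ← mul_sub, intervalIntegral.integral_Iic_sub_Iic (hint t₁) (hint t₂)]
  rfl

/-- The facet volume, per unit of the constant. -/
noncomputable def fac : {m : ℕ} → (ι → Fin m → ℝ) → (ι → ℝ) → ι → ℝ
  | 0, _, _, _ => 0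
  | _ + 1, b, c, j =>
      if h : ∃ k, b j k ≠ 0 then
        |(b j h.choose)⁻¹| * pv (el b j h.choose) (ec b j h.choose c)
      else 0

lemma fac_nonneg {b : ι → Fin m → ℝ} (c : ι → ℝ) (j : ι) : 0 ≤ fac b c j := by
  cases m with
  | zero => simp [fac]
  | succ m =>
    simp only [fac]
    split
    · exact mul_nonneg (abs_nonneg _) ENNReal.toReal_nonneg
    · exact le_rfl

/-- No facet degenerates. -/
def FNonDeg : {m : ℕ} → (ι → Fin m → ℝ) → (ι → ℝ) → Prop
  | 0, _, _ => True
  | _ + 1, b, c => ∀ j k, b j k ≠ 0 → NonDeg (el b j k) (ec b j k c)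

omit [Fintype ι] in
lemma NonDeg.eventually [Finite ι] {b : ι → Fin m → ℝ} {c : ι → ℝ} (h : NonDeg b c) :
    ∀ᶠ c' in 𝓝 c, NonDeg b c' := by
  simp only [NonDeg, eventually_all]
  intro l
  rcases h l with hl | hl
  · exact .of_forall fun _ => Or.inl hl
  · exact (((continuous_apply l).tendsto c).eventually_ne hl).mono fun _ => Or.inr

lemma FNonDeg.eventually {b : ι → Fin m → ℝ} {c : ι → ℝ} (h : FNonDeg b c) :
    ∀ᶠ c' in 𝓝 c, FNonDeg b c' := by
  cases m with
  | zero => exact .of_forall fun _ => trivial
  | succ m =>
    simp only [FNonDeg, eventually_all]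
    intro j k hk
    exact (hasFDerivAt_ec b j k c).continuousAt.eventually (h j k hk).eventually

lemma continuousAt_fac {b : ι → Fin m → ℝ} (hb : Bdd b) {c : ι → ℝ} (h : FNonDeg b c) (j : ι) :
    ContinuousAt (fun c => fac b c j) c := by
  cases m with
  | zero => exact continuousAt_const
  | succ m =>
    simp only [fac]
    split
    case isTrue hj =>
      exact ((continuousAt_pv (hb.el j hj.choose_spec) (h j _ hj.choose_spec)).comp
        (hasFDerivAt_ec b j _ c).continuousAt).const_mul _
    case isFalse => exact continuousAt_const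

/-- A linear form from its coefficients. -/
noncomputable def dsum (w : ι → ℝ) : (ι → ℝ) →L[ℝ] ℝ :=
  ∑ j, w j • ContinuousLinearMap.proj j

omit [DecidableEq ι] in
lemma dsum_apply (w v : ι → ℝ) : dsum w v = ∑ j, w j * v j := by
  simp [dsum]

/-- The volume is differentiable in the constants. -/
theorem hasFDerivAt_pv {b : ι → Fin m → ℝ} (hb : Bdd b) {c : ι → ℝ} (h : NonDeg b c)
    (hf : FNonDeg b c) : HasFDerivAt (pv b) (dsum (fac b c)) c := by
  set part : Finset ι → (ι → ℝ) → (ι → ℝ) := fun s v l => c l + if l ∈ s then v l else 0 with hpart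
  have key : ∀ s : Finset ι,
      (fun v : ι → ℝ => pv b (part s v) - pv b c - ∑ j ∈ s, fac b c j * v j) =o[𝓝 0] id := by
    intro s
    induction s using Finset.induction with
    | empty =>
      simp [hpart]
    | insert a s has ih =>
      have inc : (fun v : ι → ℝ => pv b (part (insert a s) v) - pv b (part s v) - fac b c a * v a)
          =o[𝓝 0] id := by
        refine Asymptotics.isLittleO_iff.2 fun ε hε => ?_
        have hupd : ∀ v, part (insert a s) v = Function.update (part s v) a (c a + v a) := by
          intro v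
          funext l
          by_cases hl : l = a
          · subst hl; simp [hpart]
          · simp [hpart, hl]
        have hsame : ∀ v, part s v = Function.update (part s v) a (c a) := fun v => by
          funext l
          by_cases hl : l = a
          · subst hl; simp [hpart, has]
          · simp [hl]
        cases m with
        | zero =>
          have hba : b a = 0 := funext fun k => k.elim0
          have hca : c a ≠ 0 := (h a).resolve_left (not_not.2 hba)
          filter_upwards [Metric.ball_mem_nhds (0 : ι → ℝ) (abs_pos.2 hca)] with v hv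
          have hv' : |v a| < |c a| :=
            lt_of_le_of_lt (norm_le_pi_norm v a) (by simpa [dist_zero_right] using hv)
          have : poly b (part (insert a s) v) = poly b (part s v) := by
            rw [hupd v]
            conv_rhs => rw [hsame v]
            ext x
            simp only [poly, mem_ofPred_eq]
            refine forall_congr' fun l => ?_
            by_cases hl : l = a
            · subst hl
              simp only [hba, dotProduct_zero, Function.update_self]
              rcases abs_cases (c l) with ⟨e, _⟩ | ⟨e, _⟩ <;> rw [e, abs_lt] at hv' <;>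
                constructor <;> intro <;> linarith
            · simp [hl]
          simp [pv, this, fac]
          positivity
        | succ m =>
          by_cases hj : ∃ k, b a k ≠ 0
          · have hk := hj.choose_spec
            obtain ⟨δ, hδ, hball⟩ := Metric.continuousAt_iff.1 (continuousAt_fac hb hf a) ε hε
            filter_upwards [Metric.ball_mem_nhds (0 : ι → ℝ) hδ] with v hv
            rw [mem_ball_zero_iff] at hv
            obtain ⟨hii, hsub⟩ := pv_update_sub hb a hk (part s v) (c a) (c a + v a)
            rw [hupd v]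
            conv_lhs => rw [show pv b (part s v) = pv b (Function.update (part s v) a (c a)) by
              rw [← hsame v], hsub, ← intervalIntegral.integral_const_mul,
              show fac b c a * v a = ∫ _ in (c a)..(c a + v a), fac b c a by simp [mul_comm],
              ← intervalIntegral.integral_sub (hii.const_mul _) intervalIntegrable_const]
            refine (intervalIntegral.norm_integral_le_of_norm_le_const fun u hu => ?_).trans
              (mul_le_mul_of_nonneg_left (le_trans (by simp) (norm_le_pi_norm v a)) hε.le)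
            have hu' : |u - c a| ≤ |v a| := by
              have h1 := abs_sub_left_of_mem_uIcc (uIoc_subset_uIcc hu)
              simpa using h1
            have hd : dist (Function.update (part s v) a u) c < δ := by
              refine lt_of_le_of_lt ((dist_pi_le_iff (norm_nonneg v)).2 fun l => ?_) hv
              rw [Real.dist_eq]
              by_cases hl : l = a
              · subst hl
                simpa using hu'.trans (norm_le_pi_norm v l)
              · simp only [hpart, Function.update_of_ne hl, add_sub_cancel_left]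
                split
                · exact norm_le_pi_norm v l
                · simp
            have := (hball hd).le
            simp only [fac, dif_pos hj, Real.dist_eq] at this
            simpa only [fac, dif_pos hj, Real.norm_eq_abs] using this
          · push Not at hj
            have hba : b a = 0 := funext hj
            have hca : c a ≠ 0 := (h a).resolve_left (not_not.2 hba)
            filter_upwards [Metric.ball_mem_nhds (0 : ι → ℝ) (abs_pos.2 hca)] with v hv
            have hv' : |v a| < |c a| :=
              lt_of_le_of_lt (norm_le_pi_norm v a) (by simpa [dist_zero_right] using hv)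
            have : poly b (part (insert a s) v) = poly b (part s v) := by
              rw [hupd v]
              conv_rhs => rw [hsame v]
              ext x
              simp only [poly, mem_ofPred_eq]
              refine forall_congr' fun l => ?_
              by_cases hl : l = a
              · subst hl
                simp only [hba, dotProduct_zero, Function.update_self]
                rcases abs_cases (c l) with ⟨e, _⟩ | ⟨e, _⟩ <;> rw [e, abs_lt] at hv' <;>
                  constructor <;> intro <;> linarith
              · simp [hl]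
            simp [pv, this, fac, hj]
            positivity
      refine (inc.add ih).congr_left fun v => ?_
      rw [Finset.sum_insert has]
      ring
  rw [hasFDerivAt_iff_isLittleO_nhds_zero]
  refine (key Finset.univ).congr_left fun v => ?_
  simp [hpart, dsum_apply, Pi.add_def]

/-- The derivative of the facet volume. -/
noncomputable def dfac : {m : ℕ} → (ι → Fin m → ℝ) → (ι → ℝ) → ι → ι → ℝ
  | 0, _, _, _, _ => 0
  | _ + 1, b, c, j, l =>
      if h : ∃ k, b j k ≠ 0 then
        |(b j h.choose)⁻¹| *
          ∑ p, fac (el b j h.choose) (ec b j h.choose c) p * lec b j h.choose (Pi.single l 1) p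
      else 0

lemma dfac_other {b : ι → Fin (m + 1) → ℝ} {c : ι → ℝ} {j l : ι} (hl : l ≠ j)
    (h : ∃ k, b j k ≠ 0) :
    dfac b c j l = |(b j h.choose)⁻¹| * fac (el b j h.choose) (ec b j h.choose c) l := by
  simp only [dfac, dif_pos h]
  congr 1
  rw [Finset.sum_eq_single l]
  · simp [lec, hl, hl.symm]
  · intro p _ hp
    by_cases hpj : p = j
    · simp [lec, hpj]
    · simp [lec, hpj, hp, hl.symm]
  · simp

lemma dfac_nonneg {b : ι → Fin m → ℝ} (c : ι → ℝ) {j l : ι} (hl : l ≠ j) : 0 ≤ dfac b c j l := by
  cases m with
  | zero => simp [dfac]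
  | succ m =>
    by_cases h : ∃ k, b j k ≠ 0
    · rw [dfac_other hl h]
      exact mul_nonneg (abs_nonneg _) (fac_nonneg _ _)
    · simp [dfac, h]

/-- Neither facet nor ridge degenerates. -/
def RNonDeg : {m : ℕ} → (ι → Fin m → ℝ) → (ι → ℝ) → Prop
  | 0, _, _ => True
  | _ + 1, b, c => ∀ j k, b j k ≠ 0 →
      NonDeg (el b j k) (ec b j k c) ∧ FNonDeg (el b j k) (ec b j k c)

lemma hasFDerivAt_fac {b : ι → Fin m → ℝ} (hb : Bdd b) {c : ι → ℝ} (h : RNonDeg b c) (j : ι) :
    HasFDerivAt (fun c => fac b c j) (dsum (dfac b c j)) c := by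
  cases m with
  | zero =>
    simp only [fac]
    refine (hasFDerivAt_const (0 : ℝ) c).congr_fderiv ?_
    ext v
    simp [dsum_apply, dfac]
  | succ m =>
    by_cases hj : ∃ k, b j k ≠ 0
    · simp only [fac, dif_pos hj]
      have hd := (((hasFDerivAt_pv (hb.el j hj.choose_spec) (h j _ hj.choose_spec).1
        (h j _ hj.choose_spec).2).comp c (hasFDerivAt_ec b j hj.choose c)).const_mul
          |(b j hj.choose)⁻¹|)
      refine hd.congr_fderiv ?_
      ext v
      simp only [ContinuousLinearMap.smul_apply, ContinuousLinearMap.comp_apply, dsum_apply,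
        smul_eq_mul, dfac, dif_pos hj]
      have e : lec b j hj.choose v = ∑ l, v l • lec b j hj.choose (Pi.single l 1) := by
        conv_lhs => rw [← Finset.univ_sum_single v]
        rw [map_sum]
        exact Finset.sum_congr rfl fun l _ => by
          rw [← map_smul, ← Pi.single_smul, smul_eq_mul, mul_one]
      simp only [e, Finset.sum_apply, Pi.smul_apply, smul_eq_mul, Finset.mul_sum, Finset.sum_mul]
      rw [Finset.sum_comm]
      exact Finset.sum_congr rfl fun l _ => Finset.sum_congr rfl fun p _ => by ring
    · simp only [fac, dif_neg hj]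
      refine (hasFDerivAt_const (0 : ℝ) c).congr_fderiv ?_
      ext v
      simp [dsum_apply, dfac, hj]

/-- If all points of the facet of `l` satisfy another equality, the facet is null. -/
lemma fac_eq_zero {b : ι → Fin m → ℝ} {c : ι → ℝ} (h : FNonDeg b c) {l q : ι} (hq : q ≠ l)
    (he : ∀ x ∈ poly b c, x ⬝ᵥ b l = c l → x ⬝ᵥ b q = c q) : fac b c l = 0 := by
  cases m with
  | zero => rfl
  | succ m =>
    simp only [fac]
    split
    case isFalse => rfl
    case isTrue hl =>
      have hk := hl.choose_spec
      set k := hl.choose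
      have hsub : poly (el b l k) (ec b l k c) ⊆ {y | y ⬝ᵥ el b l k q = ec b l k c q} :=
        fun y hy => by
          have hx := he _ (ins_mem_facet b l hk c hy) (ins_dot _ _ hk _ _)
          rw [ins_dot_other b hq hk] at hx
          simp only [mem_ofPred_eq, ec, hq, if_false]
          linarith
      have hz : volume (poly (el b l k) (ec b l k c)) = 0 := by
        rcases eq_or_ne (el b l k q) 0 with e | e
        · refine measure_mono_null hsub ?_
          have := (h l k hk q).resolve_left (not_not.2 e)
          simp [e, this.symm]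
        · exact measure_mono_null hsub (volume_hyperplane e _)
      simp [pv, hz]

end Vale.Agent.P227.Local
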